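import Crest.Agent.R202.Defs

/-!
# R202/Jet: locality, symmetry, scaling and smooth dependence of the curvature quantities

`Crest/Agent/R244/Coord.lean` has the `n = 3` versions of several smoothness lemmas; copy and
generalise (do not import it).
-/

open scoped ContDiff Topology Matrix
open Set Filter
open Crest.GeometryTopology.CoordMetric Crest.GeometryTopology.ChartCurvature

noncomputable section

namespace Crest.Agent.R202

variable {n : ℕ}

theorem jet_pderiv_congr {f f' : E n → ℝ} {x : E n} (h : f =ᶠ[𝓝 x] f') {i : Fin n} :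
    pderiv i f x = pderiv i f' x := by
  simp only [pderiv, h.fderiv_eq]

theorem jet_entry {g g' : MetricField n} {x : E n} (h : g =ᶠ[𝓝 x] g') (i j : Fin n) :
    (fun y => g y i j) =ᶠ[𝓝 x] fun y => g' y i j :=
  h.mono fun y hy => by simp only [hy]

theorem christoffel_congr {g g' : MetricField n} {x : E n} (h : g =ᶠ[𝓝 x] g') :
    christoffel g x = christoffel g' x := by
  funext k i j
  simp only [christoffel, inverseField, h.eq_of_nhds, jet_pderiv_congr (jet_entry h _ _)]

theorem jet_christoffel_ev {g g' : MetricField n} {x : E n} (h : g =ᶠ[𝓝 x] g') :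
    ∀ᶠ y in 𝓝 x, christoffel g y = christoffel g' y :=
  h.eventuallyEq_nhds.mono fun _ hy => christoffel_congr hy

theorem ricci_congr {g g' : MetricField n} {x : E n} (h : g =ᶠ[𝓝 x] g') :
    ricci g x = ricci g' x := by
  have h1 := jet_christoffel_ev h
  have h2 : ∀ k i j, (fun y => christoffel g y k i j) =ᶠ[𝓝 x] fun y => christoffel g' y k i j :=
    fun k i j => h1.mono fun y hy => by simp only [hy]
  have h3 : ∀ i, (fun y => ∑ k, christoffel g y k k i) =ᶠ[𝓝 x]
      fun y => ∑ k, christoffel g' y k k i := fun i => h1.mono fun y hy => by simp only [hy]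
  funext i j
  simp only [ricci, christoffel_congr h, jet_pderiv_congr (h2 _ _ _), jet_pderiv_congr (h3 _)]

theorem jet_riemann_congr {g g' : MetricField n} {x : E n} (h : g =ᶠ[𝓝 x] g') :
    riemann g x = riemann g' x := by
  have h1 := jet_christoffel_ev h
  have h2 : ∀ k i j, (fun y => christoffel g y k i j) =ᶠ[𝓝 x] fun y => christoffel g' y k i j :=
    fun k i j => h1.mono fun y hy => by simp only [hy]
  funext l k i j
  simp only [riemann, christoffel_congr h, jet_pderiv_congr (h2 _ _ _)]

theorem secNumer_congr {g g' : MetricField n} {x : E n} (h : g =ᶠ[𝓝 x] g') (u v : E n) :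
    secNumer g x u v = secNumer g' x u v := by
  simp only [secNumer, h.eq_of_nhds, jet_riemann_congr h]

theorem laplaceBeltrami_congr {g g' : MetricField n} {f f' : E n → ℝ} {x : E n}
    (h : g =ᶠ[𝓝 x] g') (hf : f =ᶠ[𝓝 x] f') :
    laplaceBeltrami g f x = laplaceBeltrami g' f' x := by
  have h1 : ∀ i, (fun y => Real.sqrt (g y).det * ∑ j, inverseField g y i j * pderiv j f y) =ᶠ[𝓝 x]
      fun y => Real.sqrt (g' y).det * ∑ j, inverseField g' y i j * pderiv j f' y := fun i => by
    filter_upwards [h, hf.eventuallyEq_nhds] with y hy hy'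
    simp only [inverseField, hy, jet_pderiv_congr hy']
  simp only [laplaceBeltrami, h.eq_of_nhds, jet_pderiv_congr (h1 _)]

theorem RiemAt.eventually {g : MetricField n} {x : E n} (h : RiemAt g x) :
    ∀ᶠ y in 𝓝 x, RiemAt g y := by
  obtain ⟨U, hx, hU⟩ := h
  filter_upwards [hU.isOpen.mem_nhds hx] with y hy using ⟨U, hy, hU⟩

theorem RiemAt.smooth {g : MetricField n} {x : E n} (h : RiemAt g x) (i j : Fin n) :
    ContDiffAt ℝ ∞ (fun y => g y i j) x := by
  obtain ⟨U, hx, hU⟩ := h
  exact (hU.contDiffOn i j).contDiffAt (hU.isOpen.mem_nhds hx)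

theorem RiemAt.posDef {g : MetricField n} {x : E n} (h : RiemAt g x) : (g x).PosDef := by
  obtain ⟨U, hx, hU⟩ := h
  exact hU.posDef x hx

theorem RiemAt.det_pos {g : MetricField n} {x : E n} (h : RiemAt g x) : 0 < (g x).det :=
  h.posDef.det_pos

theorem RiemAt.symm {g : MetricField n} {x : E n} (h : RiemAt g x) (i j : Fin n) :
    g x i j = g x j i := by
  simpa using (h.posDef.1.apply i j).symm

theorem RiemAt.inv_symm {g : MetricField n} {x : E n} (h : RiemAt g x) (i j : Fin n) :
    inverseField g x i j = inverseField g x j i := by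
  simpa [inverseField] using (h.posDef.inv.1.apply i j).symm

theorem RiemAt.pderiv_symm {g : MetricField n} {x : E n} (h : RiemAt g x) (l i j : Fin n) :
    pderiv l (fun y => g y i j) x = pderiv l (fun y => g y j i) x :=
  jet_pderiv_congr (h.eventually.mono fun _ hy => hy.symm i j)

theorem jet_det_smooth {X : Type} [NormedAddCommGroup X] [NormedSpace ℝ X] {A : X → Mat n} {z : X}
    (h : ∀ i j, ContDiffAt ℝ ∞ (fun y => A y i j) z) : ContDiffAt ℝ ∞ (fun y => (A y).det) z := by
  simp only [Matrix.det_apply']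
  exact ContDiffAt.sum fun σ _ => contDiffAt_const.mul (contDiffAt_prod fun i _ => h _ _)

theorem jet_inv_smooth {X : Type} [NormedAddCommGroup X] [NormedSpace ℝ X] {A : X → Mat n} {z : X}
    (h : ∀ i j, ContDiffAt ℝ ∞ (fun y => A y i j) z) (hd : (A z).det ≠ 0) (k l : Fin n) :
    ContDiffAt ℝ ∞ (fun y => (A y)⁻¹ k l) z := by
  simp only [Matrix.inv_def, Ring.inverse_eq_inv', Matrix.smul_apply, smul_eq_mul,
    Matrix.adjugate_apply]
  refine ((jet_det_smooth h).inv hd).mul (jet_det_smooth fun i j => ?_)
  simp only [Matrix.updateRow_apply]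
  split_ifs
  · exact contDiffAt_const
  · exact h _ _

theorem jet_pderiv_smooth {f : E n → ℝ} {x : E n} (h : ContDiffAt ℝ ∞ f x) (l : Fin n) :
    ContDiffAt ℝ ∞ (fun y => pderiv l f y) x :=
  (h.fderiv_right (m := ∞) (by simp)).clm_apply contDiffAt_const

theorem jet_diffAt {f : E n → ℝ} {x : E n} (h : ContDiffAt ℝ ∞ f x) : DifferentiableAt ℝ f x :=
  h.differentiableAt (by simp)

theorem jet_pderiv_comm {f : E n → ℝ} {x : E n} (h : ContDiffAt ℝ ∞ f x) (i j : Fin n) :
    pderiv i (fun y => pderiv j f y) x = pderiv j (fun y => pderiv i f y) x := by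
  have hd : DifferentiableAt ℝ (fderiv ℝ f) x :=
    (h.fderiv_right (m := ∞) (by simp)).differentiableAt (by simp)
  have h1 : ∀ u v : E n, fderiv ℝ (fun y => fderiv ℝ f y v) x u = fderiv ℝ (fderiv ℝ f) x u v :=
    fun u v => by
      rw [(hd.hasFDerivAt.clm_apply (hasFDerivAt_const v x)).fderiv]
      simp
  simp only [pderiv, h1]
  exact ((h.of_le (m := 2) ENat.LEInfty.out).isSymmSndFDerivAt (by simp)).eq _ _

theorem jet_pderiv_sum {ι : Type} [Fintype ι] {f : ι → E n → ℝ} {x : E n}
    (h : ∀ k, DifferentiableAt ℝ (f k) x) (i : Fin n) :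
    pderiv i (fun y => ∑ k, f k y) x = ∑ k, pderiv i (f k) x := by
  simp only [pderiv]
  rw [(HasFDerivAt.fun_sum fun k _ => (h k).hasFDerivAt).fderiv]
  simp

theorem jet_pderiv_mul {f f' : E n → ℝ} {x : E n} (h : DifferentiableAt ℝ f x)
    (h' : DifferentiableAt ℝ f' x) (i : Fin n) :
    pderiv i (fun y => f y * f' y) x = pderiv i f x * f' x + f x * pderiv i f' x := by
  simp only [pderiv]
  rw [(h.hasFDerivAt.fun_mul h'.hasFDerivAt).fderiv]
  simp only [add_apply, smul_apply, smul_eq_mul]
  ring

theorem jet_pderiv_add {f f' : E n → ℝ} {x : E n} (h : DifferentiableAt ℝ f x)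
    (h' : DifferentiableAt ℝ f' x) (i : Fin n) :
    pderiv i (fun y => f y + f' y) x = pderiv i f x + pderiv i f' x := by
  simp only [pderiv]
  rw [(h.hasFDerivAt.fun_add h'.hasFDerivAt).fderiv]
  simp

theorem jet_pderiv_const_mul (c : ℝ) (f : E n → ℝ) (x : E n) (i : Fin n) :
    pderiv i (fun y => c * f y) x = c * pderiv i f x := by
  have h : (fun y => c * f y) = c • f := rfl
  simp only [pderiv, h, fderiv_const_smul_field]
  rfl

theorem RiemAt.christoffel_smooth {g : MetricField n} {x : E n} (h : RiemAt g x) (k i j : Fin n) :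
    ContDiffAt ℝ ∞ (fun y => christoffel g y k i j) x :=
  contDiffAt_const.mul (ContDiffAt.sum fun l _ => (jet_inv_smooth h.smooth h.det_pos.ne' k l).mul
    (((jet_pderiv_smooth (h.smooth j l) i).add (jet_pderiv_smooth (h.smooth i l) j)).sub
      (jet_pderiv_smooth (h.smooth i j) l)))

theorem RiemAt.christoffel_symm {g : MetricField n} {x : E n} (h : RiemAt g x) (k i j : Fin n) :
    christoffel g x k i j = christoffel g x k j i := by
  simp only [christoffel, h.pderiv_symm _ i j]
  congr 1
  exact Finset.sum_congr rfl fun l _ => by ring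

/-- Jacobi's formula with the adjugate -/
theorem jet_fderiv_det {M : E n → Mat n} {x : E n}
    (hM : ∀ i j, DifferentiableAt ℝ (fun y => M y i j) x) (v : E n) :
    fderiv ℝ (fun y => (M y).det) x v
      = ∑ i, ∑ k, (M x).adjugate i k * fderiv ℝ (fun y => M y k i) x v := by
  have h1 := HasFDerivAt.fun_sum (u := Finset.univ) fun (σ : Equiv.Perm (Fin n)) _ =>
    (HasFDerivAt.finsetProd (u := Finset.univ) (g := fun i y => M y (σ i) i)
      fun i _ => (hM (σ i) i).hasFDerivAt).const_mul ((Equiv.Perm.sign σ : ℤ) : ℝ)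
  simp only [Matrix.det_apply']
  rw [h1.fderiv]
  have h2 : ∀ i, ∑ k, (M x).adjugate i k * fderiv ℝ (fun y => M y k i) x v
      = ((M x).updateCol i fun k => fderiv ℝ (fun y => M y k i) x v).det := fun i => by
    rw [← Matrix.cramer_apply, Matrix.cramer_eq_adjugate_mulVec]
    rfl
  simp only [h2, Matrix.det_apply', sum_apply, smul_apply, smul_eq_mul,
    Finset.mul_sum]
  rw [Finset.sum_comm]
  refine Finset.sum_congr rfl fun i _ => Finset.sum_congr rfl fun σ _ => ?_
  rw [← Finset.prod_erase_mul _ _ (Finset.mem_univ i), Matrix.updateCol_self]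
  congr 2
  exact Finset.prod_congr rfl fun j hj => (Matrix.updateCol_ne (Finset.ne_of_mem_erase hj)).symm

/-- `Σₖ Γᵏₖᵢ = ∂ᵢ (½ log det g)` (Jacobi's formula). -/
theorem RiemAt.christoffel_trace {g : MetricField n} {x : E n} (h : RiemAt g x) (i : Fin n) :
    ∑ k, christoffel g x k k i = pderiv i (fun y => (1 / 2) * Real.log (g y).det) x := by
  have hd : ∀ k l, DifferentiableAt ℝ (fun y => g y k l) x := fun k l => jet_diffAt (h.smooth k l)
  have h0 := h.det_pos.ne'
  have h1 : pderiv i (fun y => Real.log (g y).det) x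
      = ∑ k, ∑ l, inverseField g x k l * pderiv i (fun y => g y l k) x := by
    simp only [pderiv]
    rw [((jet_diffAt (jet_det_smooth h.smooth)).hasFDerivAt.log h0).fderiv,
      smul_apply, jet_fderiv_det hd, smul_eq_mul, Finset.mul_sum]
    refine Finset.sum_congr rfl fun k _ => ?_
    rw [Finset.mul_sum]
    refine Finset.sum_congr rfl fun l _ => ?_
    rw [inverseField, Matrix.inv_def, Ring.inverse_eq_inv', Matrix.smul_apply, smul_eq_mul,
      mul_assoc]
  have h2 : ∑ k, ∑ l, inverseField g x k l * pderiv k (fun y => g y i l) x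
      = ∑ k, ∑ l, inverseField g x k l * pderiv l (fun y => g y k i) x := by
    rw [Finset.sum_comm]
    exact Finset.sum_congr rfl fun k _ => Finset.sum_congr rfl fun l _ => by
      rw [h.inv_symm l k, h.pderiv_symm l i k]
  rw [jet_pderiv_const_mul, h1]
  simp only [christoffel, ← Finset.mul_sum, mul_sub, mul_add, Finset.sum_sub_distrib,
    Finset.sum_add_distrib, h2]
  have h3 : ∑ k, ∑ l, inverseField g x k l * pderiv i (fun y => g y k l) x
      = ∑ k, ∑ l, inverseField g x k l * pderiv i (fun y => g y l k) x :=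
    Finset.sum_congr rfl fun k _ => Finset.sum_congr rfl fun l _ => by rw [h.pderiv_symm i k l]
  rw [h3]
  ring

theorem RiemAt.pderiv_christoffel_symm {g : MetricField n} {x : E n} (h : RiemAt g x)
    (l k i j : Fin n) :
    pderiv l (fun y => christoffel g y k i j) x = pderiv l (fun y => christoffel g y k j i) x :=
  jet_pderiv_congr (h.eventually.mono fun _ hy => hy.christoffel_symm k i j)

theorem RiemAt.ricci_eq_sum {g : MetricField n} {x : E n} (h : RiemAt g x) (k j : Fin n) :
    ricci g x k j = ∑ l, riemann g x l k l j := by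
  simp only [ricci, riemann, Finset.sum_add_distrib, Finset.sum_sub_distrib,
    jet_pderiv_sum (fun l => jet_diffAt (h.christoffel_smooth l l k)),
    h.pderiv_christoffel_symm _ _ k j, h.christoffel_symm _ k j]
  ring

/-- Symmetry: the only non-obvious term is `∂ⱼ Σₖ Γᵏₖᵢ = ∂ⱼ∂ᵢ (½ log det g)`. -/
theorem RiemAt.ricci_symm {g : MetricField n} {x : E n} (h : RiemAt g x) (i j : Fin n) :
    ricci g x i j = ricci g x j i := by
  have h1 : ∀ a b, pderiv a (fun y => ∑ k, christoffel g y k k b) x
      = pderiv a (fun y => pderiv b (fun z => (1 / 2) * Real.log (g z).det) y) x := fun a b =>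
    jet_pderiv_congr (h.eventually.mono fun _ hy => hy.christoffel_trace b)
  have h2 : ContDiffAt ℝ ∞ (fun z => (1 / 2) * Real.log (g z).det) x :=
    contDiffAt_const.mul ((jet_det_smooth h.smooth).log h.det_pos.ne')
  have h3 : ∑ k, ∑ l, christoffel g x k j l * christoffel g x l k i
      = ∑ k, ∑ l, christoffel g x k i l * christoffel g x l k j := by
    rw [Finset.sum_comm]
    exact Finset.sum_congr rfl fun k _ => Finset.sum_congr rfl fun l _ => by
      rw [h.christoffel_symm l j k, h.christoffel_symm k l i, mul_comm]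
  simp only [ricci, h1, h3, jet_pderiv_comm h2 j i, h.pderiv_christoffel_symm _ _ i j,
    h.christoffel_symm _ i j]

theorem RiemAt.ric_symm {g : MetricField n} {x : E n} (h : RiemAt g x) (v w : E n) :
    ric g x v w = ric g x w v := by
  simp only [ric]
  rw [Finset.sum_comm]
  exact Finset.sum_congr rfl fun i _ => Finset.sum_congr rfl fun j _ => by
    rw [h.ricci_symm j i]; ring

/-- Christoffel symbols of the first kind -/
def jetT (g : MetricField n) (x : E n) (m i j : Fin n) : ℝ := ∑ l, g x l m * christoffel g x l i j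

/-- the Riemann tensor with all indices down -/
def jetR (g : MetricField n) (x : E n) (m k i j : Fin n) : ℝ := ∑ l, g x l m * riemann g x l k i j

theorem RiemAt.jetT_eq {g : MetricField n} {x : E n} (h : RiemAt g x) (m i j : Fin n) :
    jetT g x m i j = (1 / 2) * (pderiv i (fun z => g z j m) x +
      pderiv j (fun z => g z i m) x - pderiv m (fun z => g z i j) x) := by
  have h1 : g x * (g x)⁻¹ = 1 := Matrix.mul_nonsing_inv _ h.det_pos.ne'.isUnit
  have h2 : ∀ l, ∑ k, g x k m * inverseField g x k l = if m = l then 1 else 0 := fun l => by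
    have := congrFun (congrFun h1 m) l
    rw [Matrix.mul_apply, Matrix.one_apply] at this
    rw [← this]
    exact Finset.sum_congr rfl fun k _ => by rw [h.symm k m]; rfl
  have h3 : ∀ T : Fin n → ℝ, ∑ k, g x k m * ((1 / 2) * ∑ l, inverseField g x k l * T l) =
      (1 / 2) * T m := fun T => by
    have h4 : ∑ l, (∑ k, g x k m * inverseField g x k l) * T l = T m := by simp [h2]
    rw [← h4]
    simp only [Finset.mul_sum, Finset.sum_mul]
    rw [Finset.sum_comm]
    exact Finset.sum_congr rfl fun l _ => Finset.sum_congr rfl fun k _ => by ring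
  exact h3 _

/-- metric compatibility -/
theorem RiemAt.compat {g : MetricField n} {x : E n} (h : RiemAt g x) (i m k : Fin n) :
    pderiv i (fun z => g z m k) x = jetT g x m i k + jetT g x k i m := by
  rw [h.jetT_eq, h.jetT_eq, h.pderiv_symm i k m]
  ring

theorem RiemAt.jetT_smooth {g : MetricField n} {x : E n} (h : RiemAt g x) (m i j : Fin n) :
    ContDiffAt ℝ ∞ (fun y => jetT g y m i j) x :=
  ContDiffAt.sum fun l _ => (h.smooth l m).mul (h.christoffel_smooth l i j)

theorem RiemAt.jetR_eq {g : MetricField n} {x : E n} (h : RiemAt g x) (m k i j : Fin n) :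
    jetR g x m k i j = pderiv i (fun y => jetT g y m j k) x - pderiv j (fun y => jetT g y m i k) x
      - ∑ l, jetT g x l i m * christoffel g x l j k
      + ∑ l, jetT g x l j m * christoffel g x l i k := by
  have h1 : ∀ a b, pderiv a (fun y => jetT g y m b k) x
      = ∑ l, jetT g x l a m * christoffel g x l b k + ∑ l, jetT g x m a l * christoffel g x l b k
        + ∑ l, g x l m * pderiv a (fun y => christoffel g y l b k) x := fun a b => by
    simp only [← Finset.sum_add_distrib]
    unfold jetT
    rw [jet_pderiv_sum fun l => jet_diffAt ((h.smooth l m).mul (h.christoffel_smooth l b k))]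
    refine Finset.sum_congr rfl fun l _ => ?_
    rw [jet_pderiv_mul (jet_diffAt (h.smooth l m)) (jet_diffAt (h.christoffel_smooth l b k)),
      h.compat]
    unfold jetT
    ring
  have h2 : ∀ a b, ∑ l, g x l m * ∑ c, christoffel g x l a c * christoffel g x c b k
      = ∑ l, jetT g x m a l * christoffel g x l b k := fun a b => by
    simp only [jetT, Finset.mul_sum, Finset.sum_mul]
    rw [Finset.sum_comm]
    exact Finset.sum_congr rfl fun c _ => Finset.sum_congr rfl fun l _ => by ring
  rw [h1, h1, ← h2, ← h2]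
  simp only [jetR, riemann, mul_add, mul_sub, Finset.sum_add_distrib, Finset.sum_sub_distrib]
  ring

theorem jetR_anti' (g : MetricField n) (x : E n) (m k i j : Fin n) :
    jetR g x m k i j = -jetR g x m k j i := by
  simp only [jetR, riemann, ← Finset.sum_neg_distrib, Finset.sum_sub_distrib]
  exact Finset.sum_congr rfl fun l _ => by ring

theorem RiemAt.jetR_anti {g : MetricField n} {x : E n} (h : RiemAt g x) (m k i j : Fin n) :
    jetR g x m k i j = -jetR g x k m i j := by
  have h1 : ∀ a b, pderiv a (fun y => jetT g y m b k) x + pderiv a (fun y => jetT g y k b m) x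
      = pderiv a (fun y => pderiv b (fun z => g z m k) y) x := fun a b => by
    rw [← jet_pderiv_add (jet_diffAt (h.jetT_smooth _ _ _)) (jet_diffAt (h.jetT_smooth _ _ _))]
    exact jet_pderiv_congr (h.eventually.mono fun y hy => (hy.compat b m k).symm)
  have h2 : ∀ a b c d, ∑ l, jetT g x l a b * christoffel g x l c d
      = ∑ l, jetT g x l c d * christoffel g x l a b := fun a b c d => by
    simp only [jetT, Finset.sum_mul]
    rw [Finset.sum_comm]
    exact Finset.sum_congr rfl fun p _ => Finset.sum_congr rfl fun l _ => by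
      rw [h.symm p l]; ring
  have h3 := jet_pderiv_comm (h.smooth m k) i j
  rw [h.jetR_eq, h.jetR_eq, h2 i m j k, h2 j m i k]
  linear_combination h1 i j - h1 j i + h3

/-- `⟨R(u,v)v,u⟩ = ⟨R(v,u)u,v⟩`: `R_{mkij} = g_{ml} Rˡₖᵢⱼ` is antisymmetric in `(i,j)` and in
`(m,k)` (differentiate `∂ᵢ g_{mk} = g_{ml}Γˡᵢₖ + g_{kl}Γˡᵢₘ`). -/
theorem RiemAt.secNumer_comm {g : MetricField n} {x : E n} (h : RiemAt g x) (u v : E n) :
    secNumer g x u v = secNumer g x v u := by
  have h1 : ∀ a b : E n, secNumer g x a b
      = ∑ m, ∑ k, ∑ i, ∑ j, jetR g x m k i j * (a m * b k * a i * b j) := fun a b => by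
    simp only [secNumer, jetR, Finset.sum_mul, Finset.mul_sum]
    rw [Finset.sum_comm]
    refine Finset.sum_congr rfl fun m _ => ?_
    rw [Finset.sum_comm]
    refine Finset.sum_congr rfl fun k _ => ?_
    rw [Finset.sum_comm]
    refine Finset.sum_congr rfl fun i _ => ?_
    rw [Finset.sum_comm]
    refine Finset.sum_congr rfl fun j _ => Finset.sum_congr rfl fun l _ => by ring
  rw [h1, h1, Finset.sum_comm]
  refine Finset.sum_congr rfl fun m _ => Finset.sum_congr rfl fun k _ => ?_
  rw [Finset.sum_comm]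
  refine Finset.sum_congr rfl fun i _ => Finset.sum_congr rfl fun j _ => ?_
  rw [h.jetR_anti k m j i, jetR_anti' g x m k j i]
  ring

theorem RiemAt.comp_smul {g : MetricField n} {x : E n} {c : ℝ} (h : RiemAt g (c • x)) :
    RiemAt (fun y => g (c • y)) x := by
  obtain ⟨U, hx, hU⟩ := h
  have hc : ContDiff ℝ ∞ (fun y : E n => c • y) := contDiff_const_smul c
  exact ⟨(fun y => c • y) ⁻¹' U, hx, hU.isOpen.preimage hc.continuous,
    fun i j => (hU.contDiffOn i j).comp hc.contDiffOn fun _ hy => hy,
    fun y hy => hU.posDef _ hy⟩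

theorem jet_pderiv_comp_smul (f : E n → ℝ) (c : ℝ) (x : E n) (i : Fin n) :
    pderiv i (fun y => f (c • y)) x = c * pderiv i f (c • x) := by
  simp only [pderiv]
  rw [fderiv_comp_smul]
  rfl

theorem jet_christoffel_comp_smul (g : MetricField n) (c : ℝ) (x : E n) (k i j : Fin n) :
    christoffel (fun y => g (c • y)) x k i j = c * christoffel g (c • x) k i j := by
  have h : ∀ l a b, pderiv l (fun y => g (c • y) a b) x = c * pderiv l (fun y => g y a b) (c • x) :=
    fun l a b => jet_pderiv_comp_smul (fun y => g y a b) c x l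
  simp only [christoffel, inverseField, h, Finset.mul_sum]
  exact Finset.sum_congr rfl fun l _ => by ring

set_option linter.unusedVariables false in
/-- Scaling: `Γ` scales like `c`, the Ricci tensor like `c²`. -/
theorem ricci_comp_smul {g : MetricField n} {x : E n} {c : ℝ} (h : RiemAt g (c • x))
    (i j : Fin n) : ricci (fun y => g (c • y)) x i j = c ^ 2 * ricci g (c • x) i j := by
  have h1 : ∀ k a b l, pderiv l (fun y => christoffel (fun y => g (c • y)) y k a b) x
      = c ^ 2 * pderiv l (fun y => christoffel g y k a b) (c • x) := fun k a b l => by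
    simp only [jet_christoffel_comp_smul]
    rw [jet_pderiv_const_mul, jet_pderiv_comp_smul (fun y => christoffel g y k a b)]
    ring
  have h2 : pderiv j (fun y => ∑ k, christoffel (fun y => g (c • y)) y k k i) x
      = c ^ 2 * pderiv j (fun y => ∑ k, christoffel g y k k i) (c • x) := by
    simp only [jet_christoffel_comp_smul, ← Finset.mul_sum]
    rw [jet_pderiv_const_mul, jet_pderiv_comp_smul (fun y => ∑ k, christoffel g y k k i)]
    ring
  simp only [ricci, h1, h2]
  simp only [jet_christoffel_comp_smul, mul_sub, mul_add, Finset.mul_sum]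
  congr 1
  · congr 1
    exact Finset.sum_congr rfl fun k _ => Finset.sum_congr rfl fun l _ => by ring
  · exact Finset.sum_congr rfl fun k _ => Finset.sum_congr rfl fun l _ => by ring

/-- equality of 1-jets at `x` -/
def JetEq (f f' : E n → ℝ) (x : E n) : Prop :=
  DifferentiableAt ℝ f x ∧ DifferentiableAt ℝ f' x ∧ f x = f' x ∧ fderiv ℝ f x = fderiv ℝ f' x

namespace JetEq

variable {f f' u u' : E n → ℝ} {x : E n}

theorem const (c : ℝ) : JetEq (fun _ => c) (fun _ => c) x :=
  ⟨differentiableAt_const c, differentiableAt_const c, rfl, rfl⟩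

theorem add (h : JetEq f f' x) (k : JetEq u u' x) :
    JetEq (fun y => f y + u y) (fun y => f' y + u' y) x := by
  obtain ⟨a, b, c, d⟩ := h
  obtain ⟨a', b', c', d'⟩ := k
  refine ⟨a.add a', b.add b', by simp only [c, c'], ?_⟩
  rw [fderiv_fun_add a a', fderiv_fun_add b b', d, d']

theorem sub (h : JetEq f f' x) (k : JetEq u u' x) :
    JetEq (fun y => f y - u y) (fun y => f' y - u' y) x := by
  obtain ⟨a, b, c, d⟩ := h
  obtain ⟨a', b', c', d'⟩ := k
  refine ⟨a.sub a', b.sub b', by simp only [c, c'], ?_⟩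
  rw [fderiv_fun_sub a a', fderiv_fun_sub b b', d, d']

theorem mul (h : JetEq f f' x) (k : JetEq u u' x) :
    JetEq (fun y => f y * u y) (fun y => f' y * u' y) x := by
  obtain ⟨a, b, c, d⟩ := h
  obtain ⟨a', b', c', d'⟩ := k
  refine ⟨a.mul a', b.mul b', by simp only [c, c'], ?_⟩
  rw [fderiv_fun_mul a a', fderiv_fun_mul b b', c, c', d, d']

theorem inv (h : JetEq f f' x) (h0 : f x ≠ 0) : JetEq (fun y => (f y)⁻¹) (fun y => (f' y)⁻¹) x := by
  obtain ⟨a, b, c, d⟩ := h
  have h0' : f' x ≠ 0 := c ▸ h0
  refine ⟨a.inv h0, b.inv h0', by simp only [c], ?_⟩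
  have e := ((hasFDerivAt_inv h0).comp x a.hasFDerivAt).fderiv
  have e' := ((hasFDerivAt_inv h0').comp x b.hasFDerivAt).fderiv
  rw [c, d, ← e'] at e
  exact e

theorem finsum {ι : Type} {F F' : ι → E n → ℝ} (s : Finset ι) (h : ∀ k, JetEq (F k) (F' k) x) :
    JetEq (fun y => ∑ k ∈ s, F k y) (fun y => ∑ k ∈ s, F' k y) x := by
  classical
  induction s using Finset.induction_on with
  | empty => simpa using const 0
  | insert a s ha ih => simpa only [Finset.sum_insert ha] using (h a).add ih

theorem sum {ι : Type} [Fintype ι] {F F' : ι → E n → ℝ} (h : ∀ k, JetEq (F k) (F' k) x) :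
    JetEq (fun y => ∑ k, F k y) (fun y => ∑ k, F' k y) x := finsum _ h

theorem finprod {ι : Type} {F F' : ι → E n → ℝ} (s : Finset ι) (h : ∀ k, JetEq (F k) (F' k) x) :
    JetEq (fun y => ∏ k ∈ s, F k y) (fun y => ∏ k ∈ s, F' k y) x := by
  classical
  induction s using Finset.induction_on with
  | empty => simpa using const 1
  | insert a s ha ih => simpa only [Finset.prod_insert ha] using (h a).mul ih

theorem det {A A' : E n → Mat n} (h : ∀ i j, JetEq (fun y => A y i j) (fun y => A' y i j) x) :
    JetEq (fun y => (A y).det) (fun y => (A' y).det) x := by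
  simp only [Matrix.det_apply']
  exact sum fun σ => (const _).mul (finprod _ fun i => h _ _)

theorem inv_apply {A A' : E n → Mat n} (h : ∀ i j, JetEq (fun y => A y i j) (fun y => A' y i j) x)
    (hd : (A x).det ≠ 0) (k l : Fin n) :
    JetEq (fun y => (A y)⁻¹ k l) (fun y => (A' y)⁻¹ k l) x := by
  simp only [Matrix.inv_def, Ring.inverse_eq_inv', Matrix.smul_apply, smul_eq_mul,
    Matrix.adjugate_apply]
  refine ((det h).inv hd).mul (det fun i j => ?_)
  simp only [Matrix.updateRow_apply]
  split_ifs
  · exact const _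
  · exact h _ _

end JetEq

/-- The Ricci tensor only depends on the 2-jet.  (Expand `∂Γ` by the product rule and
`∂(g⁻¹) = -g⁻¹ (∂g) g⁻¹`.) -/
theorem ricci_jet_congr {g g' : MetricField n} {x : E n} (h : RiemAt g x) (h' : RiemAt g' x)
    (h0 : g x = g' x)
    (h1 : ∀ i j, fderiv ℝ (fun y => g y i j) x = fderiv ℝ (fun y => g' y i j) x)
    (h2 : ∀ i j, fderiv ℝ (fderiv ℝ (fun y => g y i j)) x
      = fderiv ℝ (fderiv ℝ (fun y => g' y i j)) x) :
    ricci g x = ricci g' x := by
  have hg : ∀ i j, JetEq (fun y => g y i j) (fun y => g' y i j) x := fun i j =>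
    ⟨jet_diffAt (h.smooth i j), jet_diffAt (h'.smooth i j), by simp only [h0], h1 i j⟩
  have hp : ∀ l i j, JetEq (fun y => pderiv l (fun z => g z i j) y)
      (fun y => pderiv l (fun z => g' z i j) y) x := fun l i j => by
    have hd : DifferentiableAt ℝ (fderiv ℝ fun z => g z i j) x :=
      ((h.smooth i j).fderiv_right (m := ∞) (by simp)).differentiableAt (by simp)
    have hd' : DifferentiableAt ℝ (fderiv ℝ fun z => g' z i j) x :=
      ((h'.smooth i j).fderiv_right (m := ∞) (by simp)).differentiableAt (by simp)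
    refine ⟨jet_diffAt (jet_pderiv_smooth (h.smooth i j) l),
      jet_diffAt (jet_pderiv_smooth (h'.smooth i j) l), by simp only [pderiv, h1], ?_⟩
    simp only [pderiv]
    rw [(hd.hasFDerivAt.clm_apply (hasFDerivAt_const _ x)).fderiv,
      (hd'.hasFDerivAt.clm_apply (hasFDerivAt_const _ x)).fderiv, h1, h2]
  have hc : ∀ k i j, JetEq (fun y => christoffel g y k i j) (fun y => christoffel g' y k i j) x :=
    fun k i j => (JetEq.const _).mul (JetEq.sum fun l => (JetEq.inv_apply hg h.det_pos.ne' k l).mul
      (((hp i j l).add (hp j i l)).sub (hp l i j)))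
  funext i j
  simp only [ricci, pderiv, (hc _ _ _).2.2.1, (hc _ _ _).2.2.2,
    (JetEq.sum fun k => hc k k i).2.2.2]

theorem jet_pderiv_param {P : Type} [NormedAddCommGroup P] [NormedSpace ℝ P]
    {F : P × E n → ℝ} {p : P} {x : E n} (h : ContDiffAt ℝ ∞ F (p, x)) (l : Fin n) :
    ContDiffAt ℝ ∞ (fun z : P × E n => pderiv l (fun y => F (z.1, y)) z.2) (p, x) := by
  have h1 : ContDiffAt ℝ ∞ (Function.uncurry fun (z : P × E n) (y : E n) => F (z.1, y))
      ((p, x), x) :=
    ContDiffAt.comp (g := F) (f := fun w : (P × E n) × E n => (w.1.1, w.2)) ((p, x), x) h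
      (by fun_prop)
  exact (ContDiffAt.fderiv (f := fun (z : P × E n) (y : E n) => F (z.1, y)) (g := Prod.snd)
    (m := ∞) h1 contDiffAt_snd (by simp)).clm_apply contDiffAt_const

theorem jet_christoffel_param {P : Type} [NormedAddCommGroup P] [NormedSpace ℝ P]
    {G : P → MetricField n} {p : P} {x : E n}
    (hs : ∀ i j, ContDiffAt ℝ ∞ (fun z : P × E n => G z.1 z.2 i j) (p, x))
    (hd : (G p x).det ≠ 0) (k i j : Fin n) :
    ContDiffAt ℝ ∞ (fun z : P × E n => christoffel (G z.1) z.2 k i j) (p, x) := by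
  have h1 : ∀ l a b, ContDiffAt ℝ ∞
      (fun z : P × E n => pderiv l (fun y => G z.1 y a b) z.2) (p, x) :=
    fun l a b => jet_pderiv_param (F := fun z : P × E n => G z.1 z.2 a b) (hs a b) l
  exact contDiffAt_const.mul (ContDiffAt.sum fun l _ =>
    (jet_inv_smooth (A := fun z : P × E n => G z.1 z.2) hs hd k l).mul
      (((h1 i j l).add (h1 j i l)).sub (h1 l i j)))

/-- Smooth dependence on parameters (partial derivatives in `y` of a jointly smooth function are
jointly smooth, `ContDiffAt.fderiv`; the inverse is `adjugate / det`). -/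
theorem ricci_param_smooth {P : Type} [NormedAddCommGroup P] [NormedSpace ℝ P]
    {G : P → MetricField n} {p : P} {x : E n}
    (hs : ∀ i j, ContDiffAt ℝ ∞ (fun z : P × E n => G z.1 z.2 i j) (p, x))
    (hd : (G p x).det ≠ 0) (i j : Fin n) :
    ContDiffAt ℝ ∞ (fun z : P × E n => ricci (G z.1) z.2 i j) (p, x) := by
  have hc := jet_christoffel_param hs hd
  have h1 : ∀ l k a b, ContDiffAt ℝ ∞
      (fun z : P × E n => pderiv l (fun y => christoffel (G z.1) y k a b) z.2) (p, x) :=
    fun l k a b => jet_pderiv_param (F := fun z : P × E n => christoffel (G z.1) z.2 k a b)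
      (hc k a b) l
  have h2 : ContDiffAt ℝ ∞
      (fun z : P × E n => pderiv j (fun y => ∑ k, christoffel (G z.1) y k k i) z.2) (p, x) :=
    jet_pderiv_param (F := fun z : P × E n => ∑ k, christoffel (G z.1) z.2 k k i)
      (ContDiffAt.sum fun k _ => hc k k i) j
  exact (((ContDiffAt.sum fun k _ => h1 k k i j).sub h2).add
    (ContDiffAt.sum fun k _ => ContDiffAt.sum fun l _ => (hc k k l).mul (hc l i j))).sub
    (ContDiffAt.sum fun k _ => ContDiffAt.sum fun l _ => (hc k j l).mul (hc l k i))

end Crest.Agent.R202
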