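import Crest.Agent.R202.PDefs

/-!
# R202/TenNum: the numerical count for `m = 15`, `k = 4000`, `q = 401/400`, `b = 19971/20000`

For `l ∈ [3990, 4042]` take `T l = {j₀ l, j₀ l + 2, …, j₁ l}`, `j₁ l` the largest `j ≤ 0.7 l` of
the parity of `l`, `j₀ l` the smallest value for which the weighted sum is still `≤ 0` (greedy from
the top; find the table with a script; margin of the count is about `1.3·10⁻³`).  Clear
denominators, define a `Nat` loop (structural recursion, `Nat.choose p 15` replaced by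
`Nat.descFactorial`/an explicit product divided by `15!`) and check by `decide +kernel`, a few
degrees per theorem; about 40000 terms in total.  See `Crest/Agent/R229` for the pattern.
-/

open Finset

namespace Crest.Agent.R202

/-- `(p + 15).choose 15` -/
def TenNum_c (p : ℕ) : ℕ :=
  (p + 1) * (p + 2) * (p + 3) * (p + 4) * (p + 5) * (p + 6) * (p + 7) * (p + 8) * (p + 9)
    * (p + 10) * (p + 11) * (p + 12) * (p + 13) * (p + 14) * (p + 15) / 1307674368000

theorem TenNum_c_eq (p : ℕ) : Nat.choose (p + 15) 15 = TenNum_c p := by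
  rw [Nat.choose_eq_asc_factorial_div_factorial, TenNum_c]
  have h1 : Nat.factorial 15 = 1307674368000 := by decide +kernel
  have h2 : (p + 1).ascFactorial 15 = (p + 1) * (p + 2) * (p + 3) * (p + 4) * (p + 5) * (p + 6)
      * (p + 7) * (p + 8) * (p + 9) * (p + 10) * (p + 11) * (p + 12) * (p + 13) * (p + 14)
      * (p + 15) := by
    rw [Nat.ascFactorial_eq_prod_range]
    simp only [prod_range_succ, prod_range_zero, one_mul, add_assoc]
  rw [h1, h2]

/-- fast form of `mult 15` -/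
def TenNum_m (l j : ℕ) : ℕ :=
  2 * (TenNum_c ((l + j) / 2) * TenNum_c ((l - j) / 2)
    - TenNum_c ((l + j) / 2 - 1) * TenNum_c ((l - j) / 2 - 1))

theorem TenNum_m_eq {l j : ℕ} (h0 : 1 ≤ j) (h1 : j + 2 ≤ l) : mult 15 l j = TenNum_m l j := by
  have e1 : (l + j) / 2 + 15 - 1 = ((l + j) / 2 - 1) + 15 := by omega
  have e2 : (l - j) / 2 + 15 - 1 = ((l - j) / 2 - 1) + 15 := by omega
  rw [mult, TenNum_m, if_neg (by omega), e1, e2, TenNum_c_eq, TenNum_c_eq, TenNum_c_eq,
    TenNum_c_eq]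

def TenNum_S0 (l j0 n : ℕ) : ℕ :=
  Nat.rec 0 (fun i acc => acc + TenNum_m l (j0 + 2 * i)) n

def TenNum_S2 (l j0 n : ℕ) : ℕ :=
  Nat.rec 0 (fun i acc => acc + TenNum_m l (j0 + 2 * i) * (j0 + 2 * i) ^ 2) n

theorem TenNum_S0_eq (l j0 n : ℕ) :
    TenNum_S0 l j0 n = ∑ i ∈ range n, TenNum_m l (j0 + 2 * i) := by
  induction n with
  | zero => rfl
  | succ n ih => rw [sum_range_succ, ← ih]; rfl

theorem TenNum_S2_eq (l j0 n : ℕ) :
    TenNum_S2 l j0 n = ∑ i ∈ range n, TenNum_m l (j0 + 2 * i) * (j0 + 2 * i) ^ 2 := by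
  induction n with
  | zero => rfl
  | succ n ih => rw [sum_range_succ, ← ih]; rfl

def TenNum_ok (l j0 n low : ℕ) : Bool :=
  Nat.ble 1 j0 && Nat.ble (j0 + 2 * n) l && Nat.beq ((l - j0) % 2) 0 &&
  Nat.ble (low * 10 ^ 69) (TenNum_S0 l j0 n) &&
  Nat.ble ((401 ^ 31 * 20000 ^ 2 * (l * (l + 30)) + 401 ^ 30 * 400 * 20000 ^ 2) * TenNum_S0 l j0 n
      + 400 ^ 31 * 20000 ^ 2 * TenNum_S2 l j0 n)
    (401 ^ 31 * 20000 ^ 2 * TenNum_S2 l j0 n
      + 401 ^ 30 * 400 * (19971 ^ 2 * (4000 * 4030)) * TenNum_S0 l j0 n)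

/-- the set `{j0, j0 + 2, …}` with `n` elements -/
def TenNum_set (j0 n : ℕ) : Finset ℕ := (range n).image fun i => j0 + 2 * i

theorem TenNum_sum {M : Type} [AddCommMonoid M] (j0 n : ℕ) (f : ℕ → M) :
    ∑ j ∈ TenNum_set j0 n, f j = ∑ i ∈ range n, f (j0 + 2 * i) :=
  sum_image fun a _ b _ h => by
    have h' : j0 + 2 * a = j0 + 2 * b := h
    omega

theorem TenNum_sound {l j0 n low : ℕ} (h : TenNum_ok l j0 n low = true) :
    (∀ j ∈ TenNum_set j0 n, j ≤ l ∧ (l - j) % 2 = 0) ∧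
    ∑ j ∈ TenNum_set j0 n, (mult 15 l j : ℝ)
      * ((401 / 400) * ((l : ℝ) * (l + 30) - (j : ℝ) ^ 2) + (400 / 401) ^ 30 * (j : ℝ) ^ 2
        - ((19971 / 20000) ^ 2 * (4000 * 4030) - 1)) ≤ 0 ∧
    low * 10 ^ 69 ≤ ∑ j ∈ TenNum_set j0 n, mult 15 l j := by
  simp only [TenNum_ok, Bool.and_eq_true, Nat.ble_eq, Nat.beq_eq] at h
  obtain ⟨⟨⟨⟨h1, h2⟩, h3⟩, h4⟩, h5⟩ := h
  have hm : ∀ i ∈ range n, mult 15 l (j0 + 2 * i) = TenNum_m l (j0 + 2 * i) := fun i hi => by
    have := mem_range.1 hi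
    exact TenNum_m_eq (by omega) (by omega)
  refine ⟨fun j hj => ?_, ?_, ?_⟩
  · obtain ⟨i, hi, rfl⟩ := mem_image.1 hj
    have := mem_range.1 hi
    omega
  · rw [TenNum_sum]
    have e : ∑ i ∈ range n, (mult 15 l (j0 + 2 * i) : ℝ)
        * ((401 / 400) * ((l : ℝ) * (l + 30) - ((j0 + 2 * i : ℕ) : ℝ) ^ 2)
          + (400 / 401) ^ 30 * ((j0 + 2 * i : ℕ) : ℝ) ^ 2
          - ((19971 / 20000) ^ 2 * (4000 * 4030) - 1))
        = ((401 / 400) * ((l : ℝ) * (l + 30)) - ((19971 / 20000) ^ 2 * (4000 * 4030) - 1))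
            * (TenNum_S0 l j0 n : ℝ)
          + ((400 / 401) ^ 30 - 401 / 400) * (TenNum_S2 l j0 n : ℝ) := by
      rw [TenNum_S0_eq, TenNum_S2_eq, Nat.cast_sum, Nat.cast_sum, mul_sum, mul_sum,
        ← sum_add_distrib]
      refine sum_congr rfl fun i hi => ?_
      rw [hm i hi, Nat.cast_mul, Nat.cast_pow]
      generalize ((400 : ℝ) / 401) ^ 30 = r
      ring
    rw [e]
    have h6 : ((401 : ℝ) ^ 31 * 20000 ^ 2 * (l * (l + 30)) + 401 ^ 30 * 400 * 20000 ^ 2)
          * (TenNum_S0 l j0 n : ℝ) + 400 ^ 31 * 20000 ^ 2 * (TenNum_S2 l j0 n : ℝ)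
        ≤ 401 ^ 31 * 20000 ^ 2 * (TenNum_S2 l j0 n : ℝ)
          + 401 ^ 30 * 400 * (19971 ^ 2 * (4000 * 4030)) * (TenNum_S0 l j0 n : ℝ) := by
      exact_mod_cast h5
    generalize (TenNum_S0 l j0 n : ℝ) = s0 at h6 ⊢
    generalize (TenNum_S2 l j0 n : ℝ) = s2 at h6 ⊢
    generalize (l : ℝ) * (l + 30) = t at h6 ⊢
    have hD : (0 : ℝ) < 401 ^ 30 * 400 * 20000 ^ 2 := by positivity
    refine le_of_mul_le_mul_left ?_ hD
    have e2 : (401 : ℝ) ^ 30 * 400 * 20000 ^ 2
        * (((401 / 400) * t - ((19971 / 20000) ^ 2 * (4000 * 4030) - 1)) * s0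
          + ((400 / 401) ^ 30 - 401 / 400) * s2)
        = ((401 : ℝ) ^ 31 * 20000 ^ 2 * t + 401 ^ 30 * 400 * 20000 ^ 2) * s0
            + 400 ^ 31 * 20000 ^ 2 * s2
          - (401 ^ 31 * 20000 ^ 2 * s2 + 401 ^ 30 * 400 * (19971 ^ 2 * (4000 * 4030)) * s0) := by
      ring
    rw [e2, mul_zero]
    exact sub_nonpos.2 h6
  · rw [TenNum_sum, sum_congr rfl hm, ← TenNum_S0_eq]
    exact h4

def TenNum_J (d : ℕ) : ℕ := List.getD
  [2, 1, 2, 1, 4, 167, 292, 397, 490, 573, 650, 719, 786, 847, 906, 961, 1014, 1065, 1114, 1163,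
    1208, 1253, 1296, 1337, 1378, 1419, 1458, 1495, 1534, 1569, 1606, 1641, 1676, 1711, 1744,
    1777, 1810, 1843, 1874, 1907, 1938, 1969, 2000, 2031, 2062, 2093, 2124, 2155, 2186, 2219,
    2250, 2281, 2314] d 0

def TenNum_N (d : ℕ) : ℕ := List.getD
  [1236, 1237, 1237, 1238, 1237, 1155, 1093, 1041, 995, 954, 916, 881, 848, 818, 789, 762, 735,
    710, 686, 662, 640, 617, 596, 576, 556, 536, 516, 498, 479, 462, 444, 427, 409, 392, 376,
    360, 344, 327, 312, 296, 281, 266, 250, 235, 220, 205, 190, 174, 159, 143, 128, 113, 97] d 0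

def TenNum_L (d : ℕ) : ℕ := List.getD
  [9013125, 9090728, 9149150, 9227884, 9267053, 7699543, 6540890, 5618238, 4850805, 4212478,
    3662701, 3207892, 2799810, 2458862, 2155699, 1897042, 1668707, 1467939, 1291977, 1131572,
    998126, 876577, 771375, 680464, 597930, 523305, 459388, 404749, 352650, 310841, 270888,
    237102, 206760, 179657, 156897, 136538, 118385, 102224, 88807, 76095, 65590, 56301, 48084,
    40894, 34600, 29111, 24339, 20175, 16611, 13355, 10762, 8551, 6559] d 0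

def TenNum_row (d : ℕ) : Bool := TenNum_ok (3990 + d) (TenNum_J d) (TenNum_N d) (TenNum_L d)

theorem TenNum_chk0 : (List.range' 0 3).all TenNum_row = true := by decide +kernel

theorem TenNum_chk1 : (List.range' 3 3).all TenNum_row = true := by decide +kernel

theorem TenNum_chk2 : (List.range' 6 4).all TenNum_row = true := by decide +kernel

theorem TenNum_chk3 : (List.range' 10 4).all TenNum_row = true := by decide +kernel

theorem TenNum_chk4 : (List.range' 14 5).all TenNum_row = true := by decide +kernel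

theorem TenNum_chk5 : (List.range' 19 6).all TenNum_row = true := by decide +kernel

theorem TenNum_chk6 : (List.range' 25 8).all TenNum_row = true := by decide +kernel

theorem TenNum_chk7 : (List.range' 33 20).all TenNum_row = true := by decide +kernel

theorem TenNum_rows {d : ℕ} (hd : d < 53) : TenNum_row d = true := by
  have key : ∀ a n, (List.range' a n).all TenNum_row = true → a ≤ d → d < a + n →
      TenNum_row d = true := fun a n h h1 h2 =>
    List.all_eq_true.1 h d (List.mem_range'_1.2 ⟨h1, h2⟩)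
  by_cases h0 : d < 3
  · exact key _ _ TenNum_chk0 (by omega) (by omega)
  by_cases h1 : d < 6
  · exact key _ _ TenNum_chk1 (by omega) (by omega)
  by_cases h2 : d < 10
  · exact key _ _ TenNum_chk2 (by omega) (by omega)
  by_cases h3 : d < 14
  · exact key _ _ TenNum_chk3 (by omega) (by omega)
  by_cases h4 : d < 19
  · exact key _ _ TenNum_chk4 (by omega) (by omega)
  by_cases h5 : d < 25
  · exact key _ _ TenNum_chk5 (by omega) (by omega)
  by_cases h6 : d < 33
  · exact key _ _ TenNum_chk6 (by omega) (by omega)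
  exact key _ _ TenNum_chk7 (by omega) (by omega)

theorem TenNum_count : Nat.choose 4031 4000 + Nat.choose 4030 3999 + 33
    < Nat.choose 4020 31 + Nat.choose 4019 31 + ∑ d ∈ range 53, TenNum_L d * 10 ^ 69 := by
  have e1 : Nat.choose 4031 4000 = Nat.choose 4031 31 := Nat.choose_symm_of_eq_add rfl
  have e2 : Nat.choose 4030 3999 = Nat.choose 4030 31 := Nat.choose_symm_of_eq_add rfl
  rw [e1, e2]
  simp only [Nat.choose_eq_descFactorial_div_factorial]
  decide +kernel

theorem num10 : ∃ T : ℕ → Finset ℕ, (∀ l, ∀ j ∈ T l, j ≤ l ∧ (l - j) % 2 = 0) ∧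
    (∀ l ∈ Icc 3990 4042, ∑ j ∈ T l, (mult 15 l j : ℝ)
      * ((401 / 400) * ((l : ℝ) * (l + 30) - (j : ℝ) ^ 2) + (400 / 401) ^ 30 * (j : ℝ) ^ 2
        - ((19971 / 20000) ^ 2 * (4000 * 4030) - 1)) ≤ 0) ∧
    Nat.choose 4031 4000 + Nat.choose 4030 3999 + 33
      < Nat.choose 4020 31 + Nat.choose 4019 31 + ∑ l ∈ Icc 3990 4042, ∑ j ∈ T l, mult 15 l j := by
  refine ⟨fun l => if l ∈ Icc 3990 4042 then
    TenNum_set (TenNum_J (l - 3990)) (TenNum_N (l - 3990)) else ∅, ?_, ?_, ?_⟩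
  · intro l j hj
    by_cases hl : l ∈ Icc 3990 4042
    · simp only [if_pos hl] at hj
      obtain ⟨h1, h2⟩ := mem_Icc.1 hl
      have h := TenNum_rows (d := l - 3990) (by omega)
      rw [TenNum_row, show 3990 + (l - 3990) = l by omega] at h
      exact (TenNum_sound h).1 j hj
    · simp only [if_neg hl] at hj
      exact absurd hj (notMem_empty j)
  · intro l hl
    obtain ⟨h1, h2⟩ := mem_Icc.1 hl
    have h := TenNum_rows (d := l - 3990) (by omega)
    rw [TenNum_row, show 3990 + (l - 3990) = l by omega] at h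
    simp only [if_pos hl]
    exact (TenNum_sound h).2.1
  · refine lt_of_lt_of_le TenNum_count (Nat.add_le_add_left ?_ _)
    have e : Icc 3990 4042 = (range 53).image fun d => 3990 + d := by
      ext l
      simp only [mem_Icc, mem_image, mem_range]
      exact ⟨fun h => ⟨l - 3990, by omega, by omega⟩, fun ⟨d, h1, h2⟩ => by omega⟩
    conv_rhs => rw [e]
    rw [sum_image fun a _ b _ h => Nat.add_left_cancel h, ← e]
    refine sum_le_sum fun d hd => ?_
    have h := TenNum_rows (mem_range.1 hd)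
    have hl : 3990 + d ∈ Icc 3990 4042 := by
      have := mem_range.1 hd
      exact mem_Icc.2 ⟨by omega, by omega⟩
    simp only [if_pos hl, Nat.add_sub_cancel_left]
    exact (TenNum_sound h).2.2

end Crest.Agent.R202
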